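import Vale.Agent.P011.H465.C2.Geo
import Vale.Agent.P011.H519.SpanCSA

/-!
# The exchanging symmetric elements in characteristic two, and their images in matrix algebras

`I` is an element of a central simple algebra with involution with `I* = I + 1` and
`I * I + I` in the ground field; the symmetric elements `y` with `y I = (I + 1) y`.
-/

open Module

set_option linter.unusedSectionVars false

namespace Vale.Agent.P011.H465.C2

open Vale.Agent.P011.H974.Jac
open Vale.Agent.P011.H974.Loc (YY)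

section alg

variable {k K A : Type} [Field k] [Field K] [StarRing K] [Ring A] [StarRing A]
  [Algebra k K] [Algebra k A] [Algebra K A] [IsScalarTower k K A] {ν : k} {κ : K} {I : A}

variable (A) in
theorem add_self2 (h2 : (2 : k) = 0) (x : A) : x + x = 0 := by
  rw [← two_smul k, h2, zero_smul]

/-- The symmetric elements which exchange `I` and `I + 1`. -/
def WW (I : A) : Set A := {y | star y = y ∧ y * I = (I + 1) * y}

theorem II_of (h2 : (2 : k) = 0) (hI : I * I + I = algebraMap k A ν) :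
    I * I = I + algebraMap k A ν := by
  rw [← hI, add_comm (I * I) I, ← add_assoc, add_self2 A h2, zero_add]

/-- The projection on the symmetric exchanging elements. -/
def pw2 (hst : ∀ (c : K) (x : A), star (c • x) = star c • star x)
    (hk : ∀ c : k, star (algebraMap k K c) = algebraMap k K c) (κ : K) (I : A) : A →ₗ[k] A where
  toFun z := κ • (z * I + I * z) + star (κ • (z * I + I * z))
  map_add' x y := by
    rw [mul_add, add_mul]
    have e : x * I + y * I + (I * x + I * y) = (x * I + I * x) + (y * I + I * y) := by abel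
    rw [e, smul_add, star_add]
    abel
  map_smul' c x := by
    have h1 : ∀ y : A, star (c • y) = c • star y := by
      intro y
      rw [← algebraMap_smul K c y, hst, hk, algebraMap_smul]
    rw [RingHom.id_apply, mul_smul_comm, smul_mul_assoc, ← smul_add, smul_comm κ c, h1, ← smul_add]

theorem pw2_apply (hst : ∀ (c : K) (x : A), star (c • x) = star c • star x)
    (hk : ∀ c : k, star (algebraMap k K c) = algebraMap k K c) (z : A) :
    pw2 hst hk κ I z = κ • (z * I + I * z) + star (κ • (z * I + I * z)) := rfl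

theorem anti2_of (h2 : (2 : k) = 0) (hI : I * I + I = algebraMap k A ν) (z : A) :
    (z * I + I * z) * I = (I + 1) * (z * I + I * z) :=
  one_comm (add_self2 A h2) (II_of h2 hI) z (Algebra.commutes _ _)

theorem anti2_smul {u : A} (hu : u * I = (I + 1) * u) (c : K) :
    (c • u) * I = (I + 1) * (c • u) := by
  rw [smul_mul_assoc, hu, mul_smul_comm]

theorem anti2_star (h2 : (2 : k) = 0) (hs : star I = I + 1) {u : A}
    (hu : u * I = (I + 1) * u) : star u * I = (I + 1) * star u := by
  have h1 := congrArg star hu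
  rw [star_mul, star_mul, star_add, star_one, hs, add_assoc, add_self2 A h2 1, add_zero] at h1
  exact h1.symm

theorem anti2_add {u v : A} (hu : u * I = (I + 1) * u) (hv : v * I = (I + 1) * v) :
    (u + v) * I = (I + 1) * (u + v) := by
  rw [add_mul, hu, hv, mul_add]

theorem pw2_mem (h2 : (2 : k) = 0) (hs : star I = I + 1) (hI : I * I + I = algebraMap k A ν)
    (hst : ∀ (c : K) (x : A), star (c • x) = star c • star x)
    (hk : ∀ c : k, star (algebraMap k K c) = algebraMap k K c) (z : A) :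
    pw2 hst hk κ I z ∈ WW I := by
  have h1 := anti2_smul (anti2_of h2 hI z) κ
  refine ⟨?_, ?_⟩
  · rw [pw2_apply, star_add, star_star, add_comm]
  · rw [pw2_apply]
    exact anti2_add h1 (anti2_star h2 hs h1)

theorem pw2_of_mem (h2 : (2 : k) = 0) (hst : ∀ (c : K) (x : A), star (c • x) = star c • star x)
    (hk : ∀ c : k, star (algebraMap k K c) = algebraMap k K c) (hκ : κ + star κ = 1) {w : A}
    (hw : w ∈ WW I) : pw2 hst hk κ I w = w := by
  have h1 : w * I + I * w = w := by
    have e : w * I + I * w = w + (I * w + I * w) := by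
      rw [hw.2, add_mul, one_mul]
      abel
    rw [e, add_self2 A h2, add_zero]
  rw [pw2_apply, h1, hst, hw.1, ← add_smul, hκ, one_smul]

/-! ### Images in a matrix algebra -/

variable {F : Type} [Field F] {n N : ℕ} {τ : K →+* F} {Ψ : A →+* Matrix (Fin n) (Fin n) F}

theorem Psi_smul2 (hΨ : ∀ c : K, Ψ (algebraMap K A c) = algebraMap F _ (τ c)) (c : K) (x : A) :
    Ψ (c • x) = τ c • Ψ x := by
  rw [Algebra.smul_def, map_mul, hΨ, ← Algebra.smul_def]

theorem Psi_smulk2 (hΨ : ∀ c : K, Ψ (algebraMap K A c) = algebraMap F _ (τ c)) (c : k) (x : A) :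
    Ψ (c • x) = τ (algebraMap k K c) • Ψ x := by
  rw [← algebraMap_smul K c x, Psi_smul2 hΨ]

theorem Psi_sum2 (hΨ : ∀ c : K, Ψ (algebraMap K A c) = algebraMap F _ (τ c))
    (B : Basis (Fin N) k A) (x : A) :
    Ψ x = ∑ l, τ (algebraMap k K (B.repr x l)) • Ψ (B l) := by
  conv_lhs => rw [← B.sum_repr x]
  rw [map_sum]
  exact Finset.sum_congr rfl fun l _ => Psi_smulk2 hΨ _ _

/-- The image of `I`. -/
theorem Psi_II2 (h2 : (2 : k) = 0) (hI : I * I + I = algebraMap k A ν)
    (hΨ : ∀ c : K, Ψ (algebraMap K A c) = algebraMap F _ (τ c)) :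
    Ψ I * Ψ I = Ψ I + (τ (algebraMap k K ν)) • 1 := by
  rw [← map_mul, II_of h2 hI, map_add, IsScalarTower.algebraMap_apply k K A, hΨ,
    Algebra.algebraMap_eq_smul_one]

theorem two_F (h2 : (2 : k) = 0) (τ : K →+* F) : (2 : F) = 0 := by
  have h1 := congrArg (fun c => τ (algebraMap k K c)) h2
  simpa only [map_ofNat, map_zero] using h1

/-- **The images of the symmetric exchanging elements span.** -/
theorem span_anti2 [IsSimpleRing A] [Algebra.IsCentral K A] (h2 : (2 : k) = 0)
    (hst : ∀ (c : K) (x : A), star (c • x) = star c • star x)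
    (hk : ∀ c : k, star (algebraMap k K c) = algebraMap k K c) (hκ : κ + star κ = 1)
    (hn : finrank K A = n ^ 2) (hn0 : n ≠ 0)
    (hs : star I = I + 1) (hI : I * I + I = algebraMap k A ν)
    (hΨ : ∀ c : K, Ψ (algebraMap K A c) = algebraMap F _ (τ c)) (B : Basis (Fin N) k A)
    {Y : Matrix (Fin n) (Fin n) F} (hY : Y * Ψ I = (Ψ I + 1) * Y) :
    Y ∈ Submodule.span F (Set.range fun l => Ψ (pw2 hst hk κ I (B l))) := by
  have h2F : (2 : F) = 0 := two_F h2 τ
  obtain ⟨S, hSe⟩ : ∃ S, S = Submodule.span F (Set.range fun l => Ψ (pw2 hst hk κ I (B l))) :=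
    ⟨_, rfl⟩
  rw [← hSe]
  have s1 : ∀ z : A, Ψ (pw2 hst hk κ I z) ∈ S := by
    intro z
    have h1 : pw2 hst hk κ I z = ∑ l, B.repr z l • pw2 hst hk κ I (B l) := by
      conv_lhs => rw [← B.sum_repr z]
      rw [map_sum]
      exact Finset.sum_congr rfl fun l _ => map_smul _ _ _
    rw [h1, map_sum]
    refine Submodule.sum_mem _ fun l _ => ?_
    rw [Psi_smulk2 hΨ, hSe]
    exact Submodule.smul_mem _ _ (Submodule.subset_span ⟨l, rfl⟩)
  have s2 : ∀ w ∈ WW I, Ψ w ∈ S := by
    intro w hw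
    have h1 := s1 w
    rwa [pw2_of_mem h2 hst hk hκ hw] at h1
  have s3 : ∀ u : A, u * I = (I + 1) * u → Ψ u ∈ S := by
    intro u hu
    have hu' := anti2_star h2 hs hu
    have h1 : Ψ (u + star u) ∈ S := s2 _ ⟨by rw [star_add, star_star, add_comm],
      anti2_add hu hu'⟩
    have h3 : Ψ (κ • u + star κ • star u) ∈ S := s2 _ ⟨by
      rw [star_add, hst, hst, star_star, star_star, add_comm],
      anti2_add (anti2_smul hu κ) (anti2_smul hu' (star κ))⟩
    have h7 : u = star κ • (u + star u) + (κ • u + star κ • star u) := by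
      rw [smul_add]
      have e : star κ • u + star κ • star u + (κ • u + star κ • star u) =
          (κ + star κ) • u + (star κ • star u + star κ • star u) := by
        rw [add_smul]
        abel
      rw [e, hκ, one_smul, add_self2 A h2, add_zero]
    rw [h7, map_add, Psi_smul2 hΨ]
    exact Submodule.add_mem _ (Submodule.smul_mem _ _ h1) h3
  -- the projection
  let L : Matrix (Fin n) (Fin n) F →ₗ[F] Matrix (Fin n) (Fin n) F :=
    LinearMap.mulRight F (Ψ I) + LinearMap.mulLeft F (Ψ I)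
  have hL : ∀ M, L M = M * Ψ I + Ψ I * M := fun M => rfl
  have htop := H519.span_range_eq_top hn hn0 τ Ψ hΨ
  have h8 : L Y ∈ S := by
    have h9 : Y ∈ Submodule.span F (Set.range Ψ) := by
      rw [htop]
      exact Submodule.mem_top
    have h10 : Submodule.span F (Set.range Ψ) ≤ S.comap L := by
      rw [Submodule.span_le]
      rintro _ ⟨z, rfl⟩
      change L (Ψ z) ∈ S
      rw [hL, ← map_mul, ← map_mul, ← map_add]
      exact s3 _ (anti2_of h2 hI z)
    exact h10 h9
  have h11 : L Y = Y := by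
    rw [hL, hY]
    have e : (Ψ I + 1) * Y + Ψ I * Y = Y + (Ψ I * Y + Ψ I * Y) := by
      rw [Matrix.add_mul, Matrix.one_mul]
      abel
    rw [e, add_self_mat h2F, add_zero]
  rwa [h11] at h8

/-- The rank of the idempotent. -/
theorem rank_e2 {m : ℕ} (h2 : (2 : k) = 0) (hn : n = 2 * m) (hI : I * I + I = algebraMap k A ν)
    (hΨ : ∀ c : K, Ψ (algebraMap K A c) = algebraMap F _ (τ c)) {ω : F}
    (hω : ω * ω = ω + τ (algebraMap k K ν)) {w : A} (hwu : IsUnit w)
    (hw : w * I = (I + 1) * w) :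
    (Ψ I + ω • (1 : Matrix (Fin n) (Fin n) F)).rank = m := by
  have h2F : (2 : F) = 0 := two_F h2 τ
  have h1 := rank_idem _ (idem2 h2F (Psi_II2 h2 hI hΨ) hω)
  have hu : IsUnit (Ψ w) := hwu.map Ψ
  have hu' : IsUnit (Ψ w).det := (Matrix.isUnit_iff_isUnit_det _).mp hu
  have hw' : Ψ w * Ψ I = (Ψ I + 1) * Ψ w := by rw [← map_mul, hw, map_mul, map_add, map_one]
  have hw2 : Ψ w * (Ψ I + ω • 1) = (Ψ I + (ω + 1) • 1) * Ψ w := by
    rw [Matrix.mul_add, hw', ← smul_one_comm, ← Matrix.add_mul, add_smul, one_smul]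
    congr 1
    abel
  have h3 := congrArg Matrix.rank hw2
  rw [Matrix.rank_mul_eq_right_of_isUnit_det _ _ hu',
    Matrix.rank_mul_eq_left_of_isUnit_det _ _ hu', ← compl2 h2F] at h3
  omega

/-- **The polynomial of one homomorphism.** -/
theorem exists_polyD2 [IsSimpleRing A] [Algebra.IsCentral K A] {m : ℕ} (h2 : (2 : k) = 0)
    (hst : ∀ (c : K) (x : A), star (c • x) = star c • star x)
    (hk : ∀ c : k, star (algebraMap k K c) = algebraMap k K c) (hκ : κ + star κ = 1)
    (hm : m ≠ 0) (hn : n = 2 * m) (hdeg : finrank K A = n ^ 2)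
    (hs : star I = I + 1) (hI : I * I + I = algebraMap k A ν) (hν : ν ≠ 0)
    (hΨ : ∀ c : K, Ψ (algebraMap K A c) = algebraMap F _ (τ c)) {ω : F}
    (hω : ω * ω = ω + τ (algebraMap k K ν)) {w : A} (hwu : IsUnit w)
    (hw : w * I = (I + 1) * w) (B : Basis (Fin N) k A)
    {X : Matrix (Fin n) (Fin n) F} (hX : X.det ≠ 0) :
    ∃ p : MvPolynomial (Fin N) F, p ≠ 0 ∧ ∀ c, MvPolynomial.eval c p ≠ 0 →
      (ZZ2 (Ψ I) X (YY (fun l => Ψ (pw2 hst hk κ I (B l))) c)).det ≠ 0 ∧
      (1 + YY (fun l => Ψ (pw2 hst hk κ I (B l))) c).det ≠ 0 ∧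
      (Ψ I + (Ψ I + 1) * (YY (fun l => Ψ (pw2 hst hk κ I (B l))) c *
        YY (fun l => Ψ (pw2 hst hk κ I (B l))) c)).det ≠ 0 := by
  have h2F : (2 : F) = 0 := two_F h2 τ
  have h1F : (1 : F) + 1 = 0 := by rw [one_add_one_eq_two, h2F]
  have hω1 : (ω + 1) * (ω + 1) = ω + 1 + τ (algebraMap k K ν) := by
    have e : (ω + 1) * (ω + 1) = ω * ω + 1 + ω * (1 + 1) := by ring
    rw [e, h1F, mul_zero, add_zero, hω]
    ring
  refine exists_polyZ2 (m := m) h2F ((_root_.map_ne_zero τ).mpr
    ((_root_.map_ne_zero (algebraMap k K)).mpr hν)) (Psi_II2 h2 hI hΨ) hω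
    (rank_e2 h2 hn hI hΨ hω hwu hw) (rank_e2 h2 hn hI hΨ hω1 hwu hw) hX _
    (fun l => ?_) fun Y hY => span_anti2 h2 hst hk hκ hdeg (by omega) hs hI hΨ B hY
  rw [← map_mul, (pw2_mem h2 hs hI hst hk (B l)).2, map_mul, map_add, map_one]

end alg

end Vale.Agent.P011.H465.C2
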