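import Vale.Agent.P011.H974.LocGeo

/-!
# The geometric part of LOC in characteristic two

The determinant of the product which is made invertible, as a polynomial in the coordinates of an
element `Y` with `Y J = (J + 1) Y`.
-/

open Module

set_option linter.unusedSectionVars false

namespace Vale.Agent.P011.H465.C2

open Vale.Agent.P011.H974.Jac
open Vale.Agent.P011.H974.Loc (stable YY)

section ring

variable {R : Type*} [Ring R]

theorem neg_of (h2 : ∀ x : R, x + x = 0) (x : R) : -x = x :=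
  neg_eq_of_add_eq_zero_left (h2 x)

theorem sub_of (h2 : ∀ x : R, x + x = 0) (x y : R) : x - y = x + y := by
  rw [sub_eq_add_neg, neg_of h2]

/-- `X J + J X + X` commutes with `J`. -/
theorem zero_comm (h2 : ∀ x : R, x + x = 0) {J v : R} (hJ : J * J = J + v)
    (X : R) (hv : v * X = X * v) : (X * J + J * X + X) * J = J * (X * J + J * X + X) := by
  have h1 : (X * J + J * X + X) * J = X * (J * J) + J * X * J + X * J := by noncomm_ring
  have h3 : J * (X * J + J * X + X) = J * X * J + (J * J) * X + J * X := by noncomm_ring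
  rw [h1, h3, hJ, add_mul, mul_add, hv]
  have e1 : X * J + X * v + J * X * J + X * J = (X * v + J * X * J) + (X * J + X * J) := by abel
  have e2 : J * X * J + (J * X + X * v) + J * X = (X * v + J * X * J) + (J * X + J * X) := by abel
  rw [e1, e2, h2, h2]

/-- `X J + J X` exchanges `J` and `J + 1`. -/
theorem one_comm (h2 : ∀ x : R, x + x = 0) {J v : R} (hJ : J * J = J + v)
    (X : R) (hv : v * X = X * v) : (X * J + J * X) * J = (J + 1) * (X * J + J * X) := by
  have h1 : (X * J + J * X) * J = X * (J * J) + J * X * J := by noncomm_ring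
  have h3 : (J + 1) * (X * J + J * X) = J * X * J + (J * J) * X + X * J + J * X := by noncomm_ring
  rw [h1, h3, hJ, add_mul, mul_add, hv]
  have e2 : J * X * J + (J * X + X * v) + X * J + J * X =
      (X * J + X * v + J * X * J) + (J * X + J * X) := by abel
  rw [e2, h2, add_zero]

/-- The square of an exchanging element commutes with `J`. -/
theorem sq_comm (h2 : ∀ x : R, x + x = 0) {J Y : R} (hY : Y * J = (J + 1) * Y) :
    Y * Y * J = J * (Y * Y) := by
  have h1 : Y * Y * J = Y * (Y * J) := mul_assoc _ _ _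
  have h3 : Y * ((J + 1) * Y) = (Y * J) * Y + Y * Y := by noncomm_ring
  rw [h1, hY, h3, hY]
  have e : (J + 1) * Y * Y + Y * Y = J * (Y * Y) + (Y * Y + Y * Y) := by noncomm_ring
  rw [e, h2, add_zero]

/-- The product which is made invertible. -/
def ZZ2 (J X Y : R) : R :=
  (X * J + J * X + X) * (J + (J + 1) * (Y * Y)) + (X * J + J * X) * Y

/-- The product commutes with `J`. -/
theorem ZZ2_comm (h2 : ∀ x : R, x + x = 0) {J v : R} (hJ : J * J = J + v)
    (X : R) (hv : v * X = X * v) {Y : R} (hY : Y * J = (J + 1) * Y) :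
    ZZ2 J X Y * J = J * ZZ2 J X Y := by
  have h0 := zero_comm h2 hJ X hv
  have h1 := one_comm h2 hJ X hv
  have h3 := sq_comm h2 hY
  obtain ⟨A, hA⟩ : ∃ A, A = X * J + J * X + X := ⟨_, rfl⟩
  obtain ⟨B, hB⟩ : ∃ B, B = X * J + J * X := ⟨_, rfl⟩
  obtain ⟨U, hU⟩ : ∃ U, U = Y * Y := ⟨_, rfl⟩
  rw [← hA] at h0
  rw [← hB] at h1
  rw [← hU] at h3
  rw [ZZ2, ← hU, ← hA, ← hB]
  have h4 : B * ((J + 1) * Y) = J * (B * Y) := by
    have e1 : B * ((J + 1) * Y) = (B * J) * Y + B * Y := by noncomm_ring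
    have e2 : (J + 1) * B * Y + B * Y = J * (B * Y) + (B * Y + B * Y) := by noncomm_ring
    rw [e1, h1, e2, h2, add_zero]
  have h5 : (J + (J + 1) * U) * J = J * (J + (J + 1) * U) := by
    calc (J + (J + 1) * U) * J = J * J + (J + 1) * (U * J) := by noncomm_ring
      _ = J * (J + (J + 1) * U) := by rw [h3]; noncomm_ring
  calc (A * (J + (J + 1) * U) + B * Y) * J = A * ((J + (J + 1) * U) * J) + B * (Y * J) := by
        noncomm_ring
    _ = (A * J) * (J + (J + 1) * U) + J * (B * Y) := by rw [h5, hY, h4]; noncomm_ring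
    _ = J * (A * (J + (J + 1) * U) + B * Y) := by rw [h0]; noncomm_ring

end ring

section mat

variable {F : Type} [Field F] {m n N : ℕ}

/-- The determinant of an element which commutes with an idempotent. -/
theorem det_split {e Z : Matrix (Fin n) (Fin n) F} (he : e * e = e) (hc : e * Z = Z * e) :
    Z.det = (e * Z + (1 - e)).det * ((1 - e) * Z + e).det := by
  rw [← Matrix.det_mul]
  congr 1
  symm
  calc (e * Z + (1 - e)) * ((1 - e) * Z + e) =
        e * Z * Z - (e * Z) * e * Z + (e * Z) * e + Z - e * Z - e * Z + e * e * Z + e - e * e := by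
        noncomm_ring
    _ = Z := by
      have h8 : e * Z * e = e * Z := by rw [Matrix.mul_assoc, ← hc, ← Matrix.mul_assoc, he]
      rw [h8, he]
      abel

/-- The corner form of stable range one. -/
theorem corner_stable2 (e X : Matrix (Fin n) (Fin n) F) (he : e * e = e) (hr : e.rank = m)
    (hr' : (1 - e).rank = m) {c : F} (hc : c ≠ 0) (hX : X.det ≠ 0) :
    ∃ Y : Matrix (Fin n) (Fin n) F, e * Y = 0 ∧ Y * e = Y ∧
      (e * (c • (X * e) + X * Y) + (1 - e)).det ≠ 0 := by
  have he' : (1 - e) * (1 - e) = 1 - e := by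
    rw [Matrix.mul_sub, Matrix.mul_one, Matrix.sub_mul, Matrix.one_mul, he, sub_self, sub_zero]
  obtain ⟨P, P', h1, h3⟩ := idem_factor e he hr
  obtain ⟨R, R', h4, h5⟩ := idem_factor (1 - e) he' hr'
  have heP : e * P = P := by rw [← h3, Matrix.mul_assoc, h1, Matrix.mul_one]
  have hPe : P' * e = P' := by rw [← h3, ← Matrix.mul_assoc, h1, Matrix.one_mul]
  have heR : (1 - e) * R = R := by rw [← h5, Matrix.mul_assoc, h4, Matrix.mul_one]
  have hPR : P' * R = 0 := by
    rw [← hPe, ← heR, Matrix.mul_assoc, ← Matrix.mul_assoc e, Matrix.mul_sub, Matrix.mul_one, he,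
      sub_self, Matrix.zero_mul, Matrix.mul_zero]
  have hXu : IsUnit X.det := isUnit_iff_ne_zero.mpr hX
  have hXX : X * X⁻¹ = 1 := Matrix.mul_nonsing_inv X hXu
  have hsum : P * P' + R * R' = 1 := by rw [h3, h5]; abel
  obtain ⟨γ, hγ⟩ := stable (c • (P' * X * P)) (P' * X * R) (c⁻¹ • (P' * X⁻¹ * P))
    (R' * X⁻¹ * P) (by
      rw [Matrix.smul_mul, Matrix.mul_smul, smul_smul, mul_inv_cancel₀ hc, one_smul]
      calc P' * X * P * (P' * X⁻¹ * P) + P' * X * R * (R' * X⁻¹ * P) =
            P' * X * (P * P' + R * R') * X⁻¹ * P := by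
            simp only [Matrix.mul_add, Matrix.add_mul, Matrix.mul_assoc]
        _ = P' * (X * X⁻¹) * P := by rw [hsum]; simp only [Matrix.mul_assoc, Matrix.one_mul]
        _ = 1 := by rw [hXX, Matrix.mul_one, h1])
  refine ⟨R * γ * P', ?_, ?_, ?_⟩
  · rw [← h3, Matrix.mul_assoc, ← Matrix.mul_assoc P', ← Matrix.mul_assoc P', hPR,
      Matrix.zero_mul, Matrix.zero_mul, Matrix.mul_zero]
  · rw [Matrix.mul_assoc, hPe]
  · obtain ⟨M, hM⟩ : ∃ M, M = c • (X * e) + X * (R * γ * P') := ⟨_, rfl⟩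
    rw [← hM]
    have h6 : e * M + (1 - e) = 1 + P * (P' * (M - 1)) := by
      rw [← Matrix.mul_assoc, h3, Matrix.mul_sub, Matrix.mul_one]
      abel
    rw [h6, Matrix.det_one_add_mul_comm]
    have h7 : 1 + P' * (M - 1) * P = c • (P' * X * P) + P' * X * R * γ := by
      have h8 : P' * M * P = c • (P' * X * P) + P' * X * R * γ := by
        rw [hM, Matrix.mul_add, Matrix.add_mul, Matrix.mul_smul, Matrix.smul_mul]
        congr 1
        · rw [Matrix.mul_assoc, Matrix.mul_assoc, heP, Matrix.mul_assoc]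
        · simp only [Matrix.mul_assoc]
          rw [h1, Matrix.mul_one]
      rw [Matrix.mul_sub, Matrix.mul_one, Matrix.sub_mul, h1, h8]
      abel
    rw [h7]
    exact hγ

/-! ### Polynomials in the coordinates of the exchanging element -/

theorem exists_poly2 (A B C : Matrix (Fin n) (Fin n) F)
    (w : Fin N → Matrix (Fin n) (Fin n) F) : ∃ p : MvPolynomial (Fin N) F, ∀ c,
      MvPolynomial.eval c p = (A + B * YY w c + C * (YY w c * YY w c)).det := by
  obtain ⟨Y, hY⟩ : ∃ Y : Matrix (Fin n) (Fin n) (MvPolynomial (Fin N) F),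
    Y = ∑ l, (MvPolynomial.X l : MvPolynomial (Fin N) F) • (w l).map MvPolynomial.C := ⟨_, rfl⟩
  refine ⟨((A.map MvPolynomial.C) + (B.map MvPolynomial.C) * Y +
    (C.map MvPolynomial.C) * (Y * Y)).det, fun c => ?_⟩
  have h1 : (MvPolynomial.eval c).mapMatrix Y = YY w c := by
    rw [hY, map_sum, YY]
    refine Finset.sum_congr rfl fun l _ => ?_
    ext i j
    simp [RingHom.mapMatrix_apply]
  have h2 : ∀ M : Matrix (Fin n) (Fin n) F,
      (MvPolynomial.eval c).mapMatrix (M.map MvPolynomial.C) = M := by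
    intro M
    ext i j
    simp [RingHom.mapMatrix_apply]
  rw [RingHom.map_det]
  simp only [map_add, map_mul, h1, h2]

variable {J : Matrix (Fin n) (Fin n) F} {ω ν : F}

theorem add_self_mat (h2 : (2 : F) = 0) (M : Matrix (Fin n) (Fin n) F) : M + M = 0 := by
  rw [← two_smul F, h2, zero_smul]

theorem smul_one_comm (c : F) (M : Matrix (Fin n) (Fin n) F) :
    (c • (1 : Matrix (Fin n) (Fin n) F)) * M = M * (c • (1 : Matrix (Fin n) (Fin n) F)) := by
  rw [Matrix.smul_mul, Matrix.mul_smul, Matrix.one_mul, Matrix.mul_one]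

/-- The idempotent. -/
theorem idem2 (h2 : (2 : F) = 0) (hJ : J * J = J + ν • 1) (hω : ω * ω = ω + ν) :
    (J + ω • 1) * (J + ω • 1) = J + ω • (1 : Matrix (Fin n) (Fin n) F) := by
  have hs := add_self_mat (n := n) h2
  have h1 : (J + ω • 1) * (J + ω • 1) = J * J + (ω • J + ω • J) +
      (ω * ω) • (1 : Matrix (Fin n) (Fin n) F) := by
    rw [Matrix.add_mul, Matrix.mul_add, Matrix.mul_add, Matrix.mul_smul, Matrix.smul_mul,
      Matrix.smul_mul, Matrix.mul_one, Matrix.one_mul, Matrix.one_mul, smul_smul]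
    abel
  rw [h1, hs, hJ, hω, add_smul]
  have e : J + ν • (1 : Matrix (Fin n) (Fin n) F) + 0 + (ω • 1 + ν • 1) =
      J + ω • 1 + (ν • 1 + ν • 1) := by abel
  rw [e, hs, add_zero]

theorem compl2 (h2 : (2 : F) = 0) :
    1 - (J + ω • (1 : Matrix (Fin n) (Fin n) F)) = J + (ω + 1) • 1 := by
  rw [sub_of (add_self_mat h2), add_smul, one_smul]
  abel

/-- The corner of the product for a corner element. -/
theorem corner_ZZ2 (h2 : (2 : F) = 0) (hJ : J * J = J + ν • 1) (hω : ω * ω = ω + ν)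
    (X : Matrix (Fin n) (Fin n) F) {Y : Matrix (Fin n) (Fin n) F}
    (h0 : (J + ω • 1) * Y = 0) (h1 : Y * (J + ω • 1) = Y) :
    (J + ω • 1) * ZZ2 J X Y = (J + ω • 1) * ((ω + 1) • (X * (J + ω • 1)) + X * Y) := by
  have hs := add_self_mat (n := n) h2
  have he := idem2 (n := n) h2 hJ hω
  have hJe : J = (J + ω • 1) + ω • 1 := by
    rw [add_assoc, hs, add_zero]
  obtain ⟨e, hee⟩ : ∃ e, e = J + ω • (1 : Matrix (Fin n) (Fin n) F) := ⟨_, rfl⟩
  obtain ⟨w, hw⟩ : ∃ w, w = ω • (1 : Matrix (Fin n) (Fin n) F) := ⟨_, rfl⟩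
  have hwc : ∀ M, w * M = M * w := by
    intro M
    rw [hw]
    exact smul_one_comm ω M
  rw [← hee] at he h0 h1 hJe ⊢
  rw [← hw] at hJe
  have hYY : Y * Y = 0 := by
    calc Y * Y = Y * e * Y := by rw [h1]
      _ = Y * (e * Y) := Matrix.mul_assoc _ _ _
      _ = 0 := by rw [h0, Matrix.mul_zero]
  have hX1 : X * J + J * X = X * e + e * X := by
    rw [hJe, Matrix.mul_add, Matrix.add_mul, hwc]
    have e1 : X * e + X * w + (e * X + X * w) = X * e + e * X + (X * w + X * w) := by abel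
    rw [e1, hs, add_zero]
  have hA : e * (X * e + e * X + X) = e * X * e := by
    have e1 : e * (X * e + e * X + X) = e * X * e + (e * e) * X + e * X := by noncomm_ring
    rw [e1, he, add_assoc, hs, add_zero]
  have hB : e * ((X * e + e * X) * Y) = e * X * Y := by
    have e1 : e * ((X * e + e * X) * Y) = e * X * (e * Y) + (e * e) * X * Y := by noncomm_ring
    rw [e1, h0, he, Matrix.mul_zero, zero_add]
  have hC : e * J = e + w * e := by
    rw [hJe, Matrix.mul_add, he, hwc]
  rw [ZZ2, hYY, Matrix.mul_zero, add_zero, hX1, Matrix.mul_add, ← Matrix.mul_assoc, hA, hB,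
    Matrix.mul_assoc (e * X) e J, hC, Matrix.mul_add, add_smul, one_smul]
  have hD : e * X * (w * e) = ω • (e * X * e) := by
    rw [hw, Matrix.smul_mul, Matrix.one_mul, Matrix.mul_smul]
  have hE : e * (ω • (X * e) + X * e + X * Y) = ω • (e * X * e) + e * X * e + e * X * Y := by
    rw [Matrix.mul_add, Matrix.mul_add, Matrix.mul_smul]
    simp only [Matrix.mul_assoc]
  rw [hD, hE]
  abel

/-- **The polynomial** whose nonzero values give invertible products. -/
theorem exists_polyZ2 (h2 : (2 : F) = 0) (hν : ν ≠ 0) (hJ : J * J = J + ν • 1)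
    (hω : ω * ω = ω + ν) (hr : (J + ω • (1 : Matrix (Fin n) (Fin n) F)).rank = m)
    (hr' : (J + (ω + 1) • (1 : Matrix (Fin n) (Fin n) F)).rank = m)
    {X : Matrix (Fin n) (Fin n) F} (hX : X.det ≠ 0) (w : Fin N → Matrix (Fin n) (Fin n) F)
    (hw : ∀ l, w l * J = (J + 1) * w l)
    (hspan : ∀ Y : Matrix (Fin n) (Fin n) F, Y * J = (J + 1) * Y →
      Y ∈ Submodule.span F (Set.range w)) :
    ∃ p : MvPolynomial (Fin N) F, p ≠ 0 ∧ ∀ c, MvPolynomial.eval c p ≠ 0 →
      (ZZ2 J X (YY w c)).det ≠ 0 ∧ (1 + YY w c).det ≠ 0 ∧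
      (J + (J + 1) * (YY w c * YY w c)).det ≠ 0 := by
  have hs := add_self_mat (n := n) h2
  have h1F : (1 : F) + 1 = 0 := by rw [one_add_one_eq_two, h2]
  have hYJ : ∀ c, YY w c * J = (J + 1) * YY w c := by
    intro c
    rw [YY, Finset.sum_mul, Finset.mul_sum]
    refine Finset.sum_congr rfl fun l _ => ?_
    rw [Matrix.smul_mul, hw, Matrix.mul_smul]
  have hω1 : (ω + 1) * (ω + 1) = ω + 1 + ν := by
    have e : (ω + 1) * (ω + 1) = ω * ω + 1 + ω * (1 + 1) := by ring
    rw [e, h1F, mul_zero, add_zero, hω]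
    ring
  have hω0 : ω ≠ 0 := by
    rintro rfl
    rw [mul_zero, zero_add] at hω
    exact hν hω.symm
  have hω10 : ω + 1 ≠ 0 := by
    intro h
    rw [h, mul_zero, zero_add] at hω1
    exact hν hω1.symm
  -- the nonvanishing of one corner polynomial
  have key : ∀ ω : F, ω + 1 ≠ 0 → ω * ω = ω + ν →
      (J + ω • (1 : Matrix (Fin n) (Fin n) F)).rank = m →
      (J + (ω + 1) • (1 : Matrix (Fin n) (Fin n) F)).rank = m →
      ∃ p : MvPolynomial (Fin N) F, p ≠ 0 ∧ ∀ c,
        MvPolynomial.eval c p = ((J + ω • 1) * ZZ2 J X (YY w c) + (1 - (J + ω • 1))).det := by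
    intro ω hω1 hω hr hr'
    obtain ⟨p, hp⟩ := exists_poly2 ((J + ω • 1) * ((X * J + J * X + X) * J) + (1 - (J + ω • 1)))
      ((J + ω • 1) * (X * J + J * X)) ((J + ω • 1) * ((X * J + J * X + X) * (J + 1))) w
    have hp' : ∀ c, MvPolynomial.eval c p =
        ((J + ω • 1) * ZZ2 J X (YY w c) + (1 - (J + ω • 1))).det := by
      intro c
      rw [hp c]
      congr 1
      rw [ZZ2]
      simp only [Matrix.mul_add, Matrix.add_mul, Matrix.mul_assoc]
      abel
    refine ⟨p, ?_, hp'⟩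
    rintro rfl
    obtain ⟨Y, h0, h1, h3⟩ := corner_stable2 (J + ω • 1) X (idem2 h2 hJ hω) hr
      (by rw [compl2 h2]; exact hr') hω1 hX
    have hYJ' : Y * J = (J + 1) * Y := by
      have e0 : J = (J + ω • 1) + ω • 1 := by rw [add_assoc, hs, add_zero]
      have e1 : Y * J = Y * (J + ω • 1) + Y * (ω • 1) := by
        conv_lhs => rw [e0, Matrix.mul_add]
      have e2 : (J + 1) * Y = (J + ω • 1) * Y + (ω • 1) * Y + Y := by
        conv_lhs => rw [e0, Matrix.add_mul, Matrix.add_mul, Matrix.one_mul]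
      rw [e1, e2, h0, h1, zero_add, smul_one_comm, add_comm]
    obtain ⟨c, hc⟩ := (Submodule.mem_span_range_iff_exists_fun F).mp (hspan Y hYJ')
    have h4 := hp' c
    have hc' : YY w c = Y := hc
    rw [map_zero, hc', corner_ZZ2 h2 hJ hω X h0 h1] at h4
    exact h3 h4.symm
  obtain ⟨p1, hp1, hp1'⟩ := key ω hω10 hω hr hr'
  have hω11 : ω + 1 + 1 = ω := by rw [add_assoc, h1F, add_zero]
  obtain ⟨p2, hp2, hp2'⟩ := key (ω + 1) (by rw [hω11]; exact hω0) hω1 hr' (by rw [hω11]; exact hr)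
  obtain ⟨p3, hp3'⟩ := exists_poly2 (1 : Matrix (Fin n) (Fin n) F) 1 0 w
  have hp3'' : ∀ c, MvPolynomial.eval c p3 = (1 + YY w c).det := by
    intro c
    rw [hp3', Matrix.one_mul, Matrix.zero_mul, add_zero]
  have hYY0 : YY w 0 = 0 := by
    rw [YY]
    exact Finset.sum_eq_zero fun l _ => zero_smul _ _
  have hp3 : p3 ≠ 0 := by
    rintro rfl
    have h4 := hp3'' 0
    rw [map_zero, hYY0, add_zero, Matrix.det_one] at h4
    exact zero_ne_one h4
  obtain ⟨p4, hp4'⟩ := exists_poly2 J 0 (J + 1) w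
  have hp4'' : ∀ c, MvPolynomial.eval c p4 = (J + (J + 1) * (YY w c * YY w c)).det := by
    intro c
    rw [hp4', Matrix.zero_mul, add_zero]
  have hp4 : p4 ≠ 0 := by
    rintro rfl
    have h4 := hp4'' 0
    rw [map_zero, hYY0, Matrix.zero_mul, Matrix.mul_zero, add_zero] at h4
    have h5 : J * (J + 1) = ν • 1 := by
      rw [Matrix.mul_add, hJ, Matrix.mul_one]
      have e : J + ν • (1 : Matrix (Fin n) (Fin n) F) + J = ν • 1 + (J + J) := by abel
      rw [e, hs, add_zero]
    have h6 := congrArg Matrix.det h5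
    rw [Matrix.det_mul, ← h4, zero_mul, Matrix.det_smul, Matrix.det_one, mul_one] at h6
    exact pow_ne_zero _ hν h6.symm
  refine ⟨p1 * p2 * (p3 * p4), mul_ne_zero (mul_ne_zero hp1 hp2) (mul_ne_zero hp3 hp4),
    fun c hc => ?_⟩
  rw [map_mul, map_mul, map_mul] at hc
  refine ⟨?_, ?_, ?_⟩
  · have hcomm := ZZ2_comm hs hJ X (smul_one_comm ν X) (hYJ c)
    have hc1 : (J + ω • 1) * ZZ2 J X (YY w c) = ZZ2 J X (YY w c) * (J + ω • 1) := by
      rw [Matrix.add_mul, Matrix.mul_add, hcomm, smul_one_comm]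
    rw [det_split (idem2 h2 hJ hω) hc1, ← hp1', compl2 h2]
    have h7 := hp2' c
    rw [compl2 h2, hω11] at h7
    rw [← h7]
    exact left_ne_zero_of_mul hc
  · rw [← hp3'']
    exact left_ne_zero_of_mul (right_ne_zero_of_mul hc)
  · rw [← hp4'']
    exact right_ne_zero_of_mul (right_ne_zero_of_mul hc)

end mat

end Vale.Agent.P011.H465.C2
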